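import Vale.Agent.P359.LocD1
import Vale.Agent.P359.LocD2
import Vale.Agent.P359.LocD3
import Vale.Agent.P359.LocD4
import Vale.Agent.P359.LocD5
import Vale.Agent.P359.LocD6

/-! All local blocks pass. -/

namespace Vale.Agent.P359

theorem blocks_ok (b : ℕ) (h1 : 1 ≤ b) (h2 : b ≤ 135) : ∃ cs, blockOK b cs = true := by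
  interval_cases b
  exacts [⟨_, ok1⟩, ⟨_, ok2⟩, ⟨_, ok3⟩, ⟨_, ok4⟩, ⟨_, ok5⟩, ⟨_, ok6⟩, ⟨_, ok7⟩, ⟨_, ok8⟩,
    ⟨_, ok9⟩, ⟨_, ok10⟩, ⟨_, ok11⟩, ⟨_, ok12⟩, ⟨_, ok13⟩, ⟨_, ok14⟩, ⟨_, ok15⟩, ⟨_, ok16⟩,
    ⟨_, ok17⟩, ⟨_, ok18⟩, ⟨_, ok19⟩, ⟨_, ok20⟩, ⟨_, ok21⟩, ⟨_, ok22⟩, ⟨_, ok23⟩, ⟨_, ok24⟩,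
    ⟨_, ok25⟩, ⟨_, ok26⟩, ⟨_, ok27⟩, ⟨_, ok28⟩, ⟨_, ok29⟩, ⟨_, ok30⟩, ⟨_, ok31⟩, ⟨_, ok32⟩,
    ⟨_, ok33⟩, ⟨_, ok34⟩, ⟨_, ok35⟩, ⟨_, ok36⟩, ⟨_, ok37⟩, ⟨_, ok38⟩, ⟨_, ok39⟩, ⟨_, ok40⟩,
    ⟨_, ok41⟩, ⟨_, ok42⟩, ⟨_, ok43⟩, ⟨_, ok44⟩, ⟨_, ok45⟩, ⟨_, ok46⟩, ⟨_, ok47⟩, ⟨_, ok48⟩,
    ⟨_, ok49⟩, ⟨_, ok50⟩, ⟨_, ok51⟩, ⟨_, ok52⟩, ⟨_, ok53⟩, ⟨_, ok54⟩, ⟨_, ok55⟩, ⟨_, ok56⟩,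
    ⟨_, ok57⟩, ⟨_, ok58⟩, ⟨_, ok59⟩, ⟨_, ok60⟩, ⟨_, ok61⟩, ⟨_, ok62⟩, ⟨_, ok63⟩, ⟨_, ok64⟩,
    ⟨_, ok65⟩, ⟨_, ok66⟩, ⟨_, ok67⟩, ⟨_, ok68⟩, ⟨_, ok69⟩, ⟨_, ok70⟩, ⟨_, ok71⟩, ⟨_, ok72⟩,
    ⟨_, ok73⟩, ⟨_, ok74⟩, ⟨_, ok75⟩, ⟨_, ok76⟩, ⟨_, ok77⟩, ⟨_, ok78⟩, ⟨_, ok79⟩, ⟨_, ok80⟩,
    ⟨_, ok81⟩, ⟨_, ok82⟩, ⟨_, ok83⟩, ⟨_, ok84⟩, ⟨_, ok85⟩, ⟨_, ok86⟩, ⟨_, ok87⟩, ⟨_, ok88⟩,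
    ⟨_, ok89⟩, ⟨_, ok90⟩, ⟨_, ok91⟩, ⟨_, ok92⟩, ⟨_, ok93⟩, ⟨_, ok94⟩, ⟨_, ok95⟩, ⟨_, ok96⟩,
    ⟨_, ok97⟩, ⟨_, ok98⟩, ⟨_, ok99⟩, ⟨_, ok100⟩, ⟨_, ok101⟩, ⟨_, ok102⟩, ⟨_, ok103⟩, ⟨_, ok104⟩,
    ⟨_, ok105⟩, ⟨_, ok106⟩, ⟨_, ok107⟩, ⟨_, ok108⟩, ⟨_, ok109⟩, ⟨_, ok110⟩, ⟨_, ok111⟩, ⟨_, ok112⟩,
    ⟨_, ok113⟩, ⟨_, ok114⟩, ⟨_, ok115⟩, ⟨_, ok116⟩, ⟨_, ok117⟩, ⟨_, ok118⟩, ⟨_, ok119⟩, ⟨_, ok120⟩,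
    ⟨_, ok121⟩, ⟨_, ok122⟩, ⟨_, ok123⟩, ⟨_, ok124⟩, ⟨_, ok125⟩, ⟨_, ok126⟩, ⟨_, ok127⟩, ⟨_, ok128⟩,
    ⟨_, ok129⟩, ⟨_, ok130⟩, ⟨_, ok131⟩, ⟨_, ok132⟩, ⟨_, ok133⟩, ⟨_, ok134⟩, ⟨_, ok135⟩]

end Vale.Agent.P359
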